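import Vale.Agent.P166.Haar2.Alg

/-!
The shares as functions of the top coordinate variance `u = y / c_top`, and the inverse of the total.
-/

noncomputable section

open MeasureTheory
open scoped BigOperators

namespace Vale.Agent.P166.Haar2.Compr

variable {K : ℕ} (A : Atoms K)

/-- The Stieltjes sum. -/
def Sf (u : ℝ) : ℝ := ∑ k, A.c k / (1 + A.gapTop k * u)

/-- Its version weighted by the atoms. -/
def Ef (u : ℝ) : ℝ := ∑ k, A.a k * A.c k / (1 + A.gapTop k * u)

/-- The derivative of `u * Sf u`. -/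
def Df (u : ℝ) : ℝ := ∑ k, A.c k / (1 + A.gapTop k * u) ^ 2

/-- The derivative of `u * Ef u`. -/
def Ef2 (u : ℝ) : ℝ := ∑ k, A.a k * A.c k / (1 + A.gapTop k * u) ^ 2

/-- The gap weighted sums. -/
def Gf (n : ℕ) (u : ℝ) : ℝ := ∑ k, A.c k * A.gapTop k / (1 + A.gapTop k * u) ^ n

variable {A}

lemma gapTop_nonneg (k : Fin (K + 1)) : 0 ≤ A.gapTop k :=
  sub_nonneg.2 (A.mono.monotone (Fin.le_last k))

lemma gapTop_last : A.gapTop (Fin.last K) = 0 := sub_self _

lemma ctop_pos : 0 < A.ctop := A.pos _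

lemma den_pos (k : Fin (K + 1)) {u : ℝ} (hu : 0 ≤ u) : 0 < 1 + A.gapTop k * u := by
  nlinarith [mul_nonneg (gapTop_nonneg (A := A) k) hu]

lemma share_last (y : ℝ) : A.share (Fin.last K) y = 1 := by
  rw [Atoms.share, gapTop_last, zero_mul, add_zero]
  exact div_self ctop_pos.ne'

lemma share_mul (k : Fin (K + 1)) (u : ℝ) :
    A.share k (A.ctop * u) = A.c k / (1 + A.gapTop k * u) / A.ctop := by
  rw [Atoms.share, div_div, show A.ctop + A.gapTop k * (A.ctop * u) =
    (1 + A.gapTop k * u) * A.ctop by ring]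

lemma sum_share (u : ℝ) : ∑ k, A.share k (A.ctop * u) = Sf A u / A.ctop := by
  simp only [share_mul, Sf, Finset.sum_div]

lemma sum_a_share (u : ℝ) : ∑ k, A.a k * A.share k (A.ctop * u) = Ef A u / A.ctop := by
  simp only [share_mul, Ef, Finset.sum_div, mul_div_assoc]

lemma total_mul (u : ℝ) : A.total (A.ctop * u) = u * Sf A u := by
  rw [Atoms.total, sum_share]
  field_simp [ctop_pos.ne']

lemma ratio_mul (u : ℝ) :
    (∑ k, A.a k * A.share k (A.ctop * u)) / ∑ k, A.share k (A.ctop * u) = Ef A u / Sf A u := by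
  rw [sum_a_share, sum_share, div_div_div_cancel_right₀ ctop_pos.ne']

lemma Sf_pos {u : ℝ} (hu : 0 ≤ u) : 0 < Sf A u :=
  Finset.sum_pos (fun k _ => div_pos (A.pos k) (den_pos k hu)) Finset.univ_nonempty

lemma Df_pos {u : ℝ} (hu : 0 ≤ u) : 0 < Df A u :=
  Finset.sum_pos (fun k _ => div_pos (A.pos k) (pow_pos (den_pos k hu) 2)) Finset.univ_nonempty

lemma sum_dshare (u : ℝ) : ∑ k, A.dshare k (A.ctop * u) = Df A u / A.ctop := by
  rw [Df, Finset.sum_div]
  refine Finset.sum_congr rfl fun k _ => ?_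
  rw [Atoms.dshare, show A.ctop + A.gapTop k * (A.ctop * u) = A.ctop * (1 + A.gapTop k * u) by ring,
    mul_pow, mul_comm (A.c k), sq A.ctop, mul_assoc, mul_div_mul_left _ _ ctop_pos.ne',
    mul_comm A.ctop, div_div]

lemma dshare_last (y : ℝ) : A.dshare (Fin.last K) y = 1 := by
  rw [Atoms.dshare, gapTop_last, zero_mul, add_zero, sq]
  exact div_self (mul_ne_zero ctop_pos.ne' ctop_pos.ne')

/-! ### Algebraic relations -/

lemma one_sub_Sf {u : ℝ} (hu : 0 ≤ u) : 1 - Sf A u = u * Gf A 1 u := by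
  rw [← A.sum_one, Sf, Gf, Finset.mul_sum, ← Finset.sum_sub_distrib]
  refine Finset.sum_congr rfl fun k _ => ?_
  field_simp [(den_pos (A := A) k hu).ne']
  ring

lemma Sf_sub_Df {u : ℝ} (hu : 0 ≤ u) : Sf A u - Df A u = u * Gf A 2 u := by
  rw [Sf, Df, Gf, Finset.mul_sum, ← Finset.sum_sub_distrib]
  refine Finset.sum_congr rfl fun k _ => ?_
  field_simp [(den_pos (A := A) k hu).ne']
  ring

lemma Ef_eq (u : ℝ) : Ef A u = A.top * Sf A u - Gf A 1 u := by
  rw [Ef, Sf, Gf, Finset.mul_sum, ← Finset.sum_sub_distrib]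
  refine Finset.sum_congr rfl fun k _ => ?_
  simp only [Atoms.gapTop]
  ring

lemma Ef2_eq (u : ℝ) : Ef2 A u = A.top * Df A u - Gf A 2 u := by
  rw [Ef2, Df, Gf, Finset.mul_sum, ← Finset.sum_sub_distrib]
  refine Finset.sum_congr rfl fun k _ => ?_
  simp only [Atoms.gapTop]
  ring

/-- The identity behind the value of the functional. -/
lemma key_identity {u : ℝ} (hu : 0 ≤ u) :
    Ef2 A u + Gf A 2 u / Sf A u - Gf A 1 u = Ef A u / Sf A u * Df A u := by
  have h1 := one_sub_Sf (A := A) hu
  have h2 := Sf_sub_Df (A := A) hu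
  rw [Ef_eq, Ef2_eq]
  field_simp [(Sf_pos (A := A) hu).ne']
  linear_combination Gf A 2 u * h1 - Gf A 1 u * h2

/-! ### The inverse of the total -/

lemma continuous_total : ContinuousOn A.total (Set.Ici 0) := by
  unfold Atoms.total Atoms.share
  refine continuousOn_id.mul (continuousOn_finsetSum _ fun k _ => ?_)
  refine continuousOn_const.div (by fun_prop) fun y hy => ne_of_gt ?_
  nlinarith [mul_nonneg (gapTop_nonneg (A := A) k) (Set.mem_Ici.1 hy), ctop_pos (A := A)]

lemma total_sub_le {y y' : ℝ} (hy : 0 ≤ y) (h : y ≤ y') : y' - y ≤ A.total y' - A.total y := by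
  have hf : ∀ k, y * A.share k y ≤ y' * A.share k y' := fun k => by
    have h1 : 0 < A.ctop + A.gapTop k * y := by
      nlinarith [mul_nonneg (gapTop_nonneg (A := A) k) hy, ctop_pos (A := A)]
    have h2 : 0 < A.ctop + A.gapTop k * y' := by
      nlinarith [mul_nonneg (gapTop_nonneg (A := A) k) (hy.trans h), ctop_pos (A := A)]
    rw [Atoms.share, Atoms.share, mul_div_assoc', mul_div_assoc', div_le_div_iff₀ h1 h2]
    nlinarith [mul_le_mul_of_nonneg_left h (mul_pos (A.pos k) (ctop_pos (A := A))).le]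
  have := Finset.single_le_sum (f := fun k => y' * A.share k y' - y * A.share k y)
    (fun k _ => sub_nonneg.2 (hf k)) (Finset.mem_univ (Fin.last K))
  simp only [share_last, mul_one, Finset.sum_sub_distrib, ← Finset.mul_sum] at this
  exact this

lemma total_zero : A.total 0 = 0 := zero_mul _

lemma topOf_spec {d : ℝ} (hd : 0 ≤ d) {y : ℝ} (hy : 0 ≤ y) (h : A.total y = d) :
    A.topOf d = y := by
  have hset : {y' : ℝ | 0 ≤ y' ∧ A.total y' ≤ max d 0} = Set.Icc 0 y := by
    ext y'
    rw [Set.mem_ofPred_eq, Set.mem_Icc, max_eq_left hd, ← h]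
    refine and_congr_right fun h0 => ⟨fun hle => ?_, fun hle => ?_⟩
    · by_contra hlt
      have := total_sub_le (A := A) hy (not_le.1 hlt).le
      linarith [not_le.1 hlt]
    · have := total_sub_le (A := A) h0 hle
      linarith
  rw [Atoms.topOf, hset, csSup_Icc hy]

lemma exists_total {d : ℝ} (hd : 0 ≤ d) : ∃ y, 0 ≤ y ∧ A.total y = d := by
  have h := total_sub_le (A := A) le_rfl hd
  rw [sub_zero, total_zero, sub_zero] at h
  obtain ⟨y, hy, e⟩ := intermediate_value_Icc hd
    ((continuous_total (A := A)).mono fun y hy => hy.1) (show d ∈ Set.Icc (A.total 0) (A.total d)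
      from ⟨by rw [total_zero]; exact hd, h⟩)
  exact ⟨y, hy.1, e⟩

lemma topOf_total {y : ℝ} (hy : 0 ≤ y) : A.topOf (A.total y) = y := by
  refine topOf_spec ?_ hy rfl
  have := total_sub_le (A := A) le_rfl hy
  rw [total_zero] at this
  linarith

lemma topOf_max (d : ℝ) : A.topOf d = A.topOf (max d 0) := by
  simp [Atoms.topOf]

lemma topOf_nonneg (d : ℝ) : 0 ≤ A.topOf d := by
  obtain ⟨y, hy, e⟩ := exists_total (A := A) (le_max_right d 0)
  rw [topOf_max, ← e, topOf_total hy]
  exact hy

lemma total_topOf {d : ℝ} (hd : 0 ≤ d) : A.total (A.topOf d) = d := by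
  obtain ⟨y, hy, e⟩ := exists_total (A := A) hd
  rw [topOf_spec hd hy e, e]

lemma lipschitz_topOf : LipschitzWith 1 A.topOf := by
  refine LipschitzWith.of_le_add fun d d' => ?_
  have e : ∀ x, A.total (A.topOf x) = max x 0 := fun x => by
    rw [topOf_max, total_topOf (le_max_right x 0)]
  rcases le_total (A.topOf d) (A.topOf d') with h | h
  · linarith [dist_nonneg (x := d) (y := d')]
  · have := total_sub_le (A := A) (topOf_nonneg d') h
    rw [e, e] at this
    have h2 : max d 0 - max d' 0 ≤ dist d d' := by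
      rw [Real.dist_eq]
      exact (le_abs_self _).trans (abs_max_sub_max_le_abs d d' 0)
    linarith

lemma continuous_rA : Continuous A.rA := by
  have hd : ∀ k d, 0 < A.ctop + A.gapTop k * A.topOf d := fun k d => by
    nlinarith [mul_nonneg (gapTop_nonneg (A := A) k) (topOf_nonneg (A := A) d), ctop_pos (A := A)]
  have hs : ∀ k, Continuous fun d => A.share k (A.topOf d) := fun k => by
    unfold Atoms.share
    exact continuous_const.div (continuous_const.add (continuous_const.mul
      lipschitz_topOf.continuous)) fun d => (hd k d).ne'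
  unfold Atoms.rA
  refine Continuous.div (continuous_finsetSum _ fun k _ => continuous_const.mul (hs k))
    (continuous_finsetSum _ fun k _ => hs k) fun d => ne_of_gt ?_
  exact Finset.sum_pos (fun k _ => div_pos (A.pos k) (hd k d)) Finset.univ_nonempty

lemma rA_eq {u : ℝ} (hu : 0 ≤ u) : A.rA (u * Sf A u) = Ef A u / Sf A u := by
  rw [← total_mul, Atoms.rA, topOf_total (mul_nonneg ctop_pos.le hu), ratio_mul]

end Vale.Agent.P166.Haar2.Compr
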