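import Vale.Agent.P166.Haar2.Compr.Calc
import Vale.Agent.P166.Haar2.Compr.Func
import Vale.Agent.P166.Haar2.Statements

/-!
The steps averaged with the weights give the functional at the conjugate field path.
-/

noncomputable section

open MeasureTheory
open scoped BigOperators

namespace Vale.Agent.P166.Haar2.Compr

open Vale.Agent.P157.Parisi (IsPath siteValue weight)

variable {K : ℕ} {A : Atoms K} (C : Compr A)

/-- The top coordinate variance as a function of the total eigenvalue. -/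
def uOf (A : Atoms K) (d : ℝ) : ℝ := A.ctop⁻¹ * A.blockOf (Fin.last K) d

/-- Its derivative. -/
def uOf1 (A : Atoms K) (d : ℝ) : ℝ := A.ctop⁻¹ * A.dblockOf (Fin.last K) d

/-- The field as a function of the top coordinate variance. -/
def Ff (u : ℝ) : ℝ := ∑ j, C.b j ^ 2 * dampF (A.top - C.z j) u

/-- Its derivative. -/
def Ff1 (u : ℝ) : ℝ := ∑ j, C.b j ^ 2 * dampF1 (A.top - C.z j) u

/-- The logarithmic terms. -/
def Lf (u : ℝ) : ℝ :=
  (∑ j, -logF (A.top - C.z j) u) + (∑ k, -A.c k * logF (A.gapTop k) u) +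
    ∑ j : Fin K, logF (A.gapTop j.castSucc) u

/-- Their derivative. -/
def Lf1 (u : ℝ) : ℝ :=
  (∑ j, -logF1 (A.top - C.z j) u) + (∑ k, -A.c k * logF1 (A.gapTop k) u) +
    ∑ j : Fin K, logF1 (A.gapTop j.castSucc) u

/-- The whole value as a function of the top coordinate variance. -/
def Phi (u : ℝ) : ℝ := u * Sf A u * A.mean + u * Sf A u * Ff C u + Lf C u

/-- Its derivative. -/
def Phi1 (u : ℝ) : ℝ :=
  Df A u * A.mean + (Df A u * Ff C u + u * Sf A u * Ff1 C u) + Lf1 C u

omit C in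
lemma hasDerivAt_logF {θ u : ℝ} (h : 0 < 1 + θ * u) : HasDerivAt (logF θ) (logF1 θ u) u := by
  have h2 : HasDerivAt (fun v => 1 + θ * v) θ u := by
    simpa using ((hasDerivAt_id u).const_mul θ).const_add 1
  exact h2.log h.ne'

omit C in
lemma hasDerivAt_dampF {θ u : ℝ} (h : 0 < 1 + θ * u) : HasDerivAt (dampF θ) (dampF1 θ u) u := by
  have h2 : HasDerivAt (fun v => 1 + θ * v) θ u := by
    simpa using ((hasDerivAt_id u).const_mul θ).const_add 1
  refine ((hasDerivAt_id u).div h2 h.ne').congr_deriv ?_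
  simp [dampF1]
  ring

omit C in
lemma hasDerivAt_mul_Sf {u : ℝ} (hu : 0 ≤ u) :
    HasDerivAt (fun v => v * Sf A v) (Df A u) u := by
  have he : (fun v => v * Sf A v) = fun v => ∑ k, A.c k * dampF (A.gapTop k) v := by
    funext v
    rw [Sf, Finset.mul_sum]
    exact Finset.sum_congr rfl fun k _ => by rw [dampF]; ring
  rw [he]
  refine (HasDerivAt.fun_sum fun k _ =>
    (hasDerivAt_dampF (den_pos (A := A) k hu)).const_mul (A.c k)).congr_deriv ?_
  exact Finset.sum_congr rfl fun k _ => by rw [dampF1]; ring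

omit C in
lemma hasDerivAt_mul_Ef {u : ℝ} (hu : 0 ≤ u) :
    HasDerivAt (fun v => v * Ef A v) (Ef2 A u) u := by
  have he : (fun v => v * Ef A v) = fun v => ∑ k, A.a k * A.c k * dampF (A.gapTop k) v := by
    funext v
    rw [Ef, Finset.mul_sum]
    exact Finset.sum_congr rfl fun k _ => by rw [dampF]; ring
  rw [he]
  refine (HasDerivAt.fun_sum fun k _ =>
    (hasDerivAt_dampF (den_pos (A := A) k hu)).const_mul (A.a k * A.c k)).congr_deriv ?_
  exact Finset.sum_congr rfl fun k _ => by rw [dampF1]; ring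

omit C in
lemma hasDerivAt_Sf {u : ℝ} (hu : 0 ≤ u) : HasDerivAt (Sf A) (-Gf A 2 u) u := by
  rw [Gf, ← Finset.sum_neg_distrib]
  refine HasDerivAt.fun_sum fun k _ => ?_
  have h2 : HasDerivAt (fun v => 1 + A.gapTop k * v) (A.gapTop k) u := by
    simpa using ((hasDerivAt_id u).const_mul (A.gapTop k)).const_add 1
  refine ((hasDerivAt_const u (A.c k)).div h2 (den_pos (A := A) k hu).ne').congr_deriv ?_
  ring

lemma hasDerivAt_Phi {u : ℝ} (hu : 0 ≤ u) : HasDerivAt (Phi C) (Phi1 C u) u := by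
  have hz : ∀ j, 0 < 1 + (A.top - C.z j) * u := fun j => by
    nlinarith [mul_nonneg (sub_pos.2 (C.lt_top j)).le hu]
  have hF : HasDerivAt (Ff C) (Ff1 C u) u :=
    HasDerivAt.fun_sum fun j _ => (hasDerivAt_dampF (hz j)).const_mul _
  have hL : HasDerivAt (Lf C) (Lf1 C u) u :=
    ((HasDerivAt.fun_sum fun j _ => (hasDerivAt_logF (hz j)).neg).add
      (HasDerivAt.fun_sum fun k _ => (hasDerivAt_logF (den_pos (A := A) k hu)).const_mul _)).add
      (HasDerivAt.fun_sum fun j _ => hasDerivAt_logF (den_pos (A := A) j.castSucc hu))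
  exact (((hasDerivAt_mul_Sf hu).mul_const A.mean).add ((hasDerivAt_mul_Sf hu).mul hF)).add hL

/-- The secular identities in the variable `u`. -/
def Secular : Prop :=
  ∀ u : ℝ, 0 ≤ u → Ef A u / Sf A u - A.mean = Ff C u ∧
    Real.log (Sf A u) = (∑ j, logF (A.top - C.z j) u) -
      ∑ j : Fin K, logF (A.gapTop j.castSucc) u

variable {C}

lemma Phi_eq (h : Secular C) {u : ℝ} (hu : 0 ≤ u) :
    Phi C u = u * Ef A u - Real.log (Sf A u) - ∑ k, A.c k * logF (A.gapTop k) u := by
  obtain ⟨h1, h2⟩ := h u hu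
  rw [Phi, Lf, ← h1, h2]
  simp only [Finset.sum_neg_distrib, neg_mul]
  field_simp [(Sf_pos (A := A) hu).ne']
  ring

lemma Phi1_eq (h : Secular C) {u : ℝ} (hu : 0 ≤ u) :
    Phi1 C u = Ef A u / Sf A u * Df A u := by
  have hd : HasDerivAt (fun v => v * Ef A v - Real.log (Sf A v) -
      ∑ k, A.c k * logF (A.gapTop k) v) (Ef2 A u + Gf A 2 u / Sf A u - Gf A 1 u) u := by
    refine (((hasDerivAt_mul_Ef hu).sub ((hasDerivAt_Sf hu).log (Sf_pos hu).ne')).sub
      (HasDerivAt.fun_sum fun k _ =>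
        (hasDerivAt_logF (den_pos (A := A) k hu)).const_mul (A.c k))).congr_deriv ?_
    simp only [logF1, Gf, pow_one, mul_div_assoc', neg_div, sub_neg_eq_add]
  have hw := hd.hasDerivWithinAt.congr (s := Set.Ici 0) (f₁ := Phi C)
    (fun v hv => Phi_eq h hv) (Phi_eq h hu)
  rw [UniqueDiffWithinAt.eq_deriv _ (uniqueDiffOn_Ici 0 u hu) (hasDerivAt_Phi C hu).hasDerivWithinAt
    hw, key_identity hu]

/-- The value is the primitive of the continued R-transform. -/
lemma Phi_integral (h : Secular C) {u : ℝ} (hu : 0 ≤ u) :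
    Phi C u = ∫ x in (0 : ℝ)..u * Sf A u, A.rA x := by
  have hP : ∀ x, HasDerivAt (fun y => ∫ t in (0 : ℝ)..y, A.rA t) (A.rA x) x := fun x =>
    (continuous_rA.integral_hasStrictDerivAt 0 x).hasDerivAt
  set g := fun v => Phi C v - ∫ x in (0 : ℝ)..v * Sf A v, A.rA x
  have hg : ∀ v, 0 ≤ v → HasDerivAt g 0 v := fun v hv => by
    refine ((hasDerivAt_Phi C hv).sub ((hP _).comp v (hasDerivAt_mul_Sf hv))).congr_deriv ?_
    rw [Phi1_eq h hv, rA_eq hv, sub_self]
  have := constant_of_has_deriv_right_zero (a := 0) (b := u) (f := g)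
    (fun v hv => (hg v hv.1).continuousAt.continuousWithinAt)
    (fun v hv => (hg v hv.1).hasDerivWithinAt) u ⟨hu, le_rfl⟩
  have h0 : g 0 = 0 := by
    simp [g, Phi_eq h le_rfl, Sf, A.sum_one, logF]
  rw [h0] at this
  simpa [g, sub_eq_zero] using this

variable (C)

lemma uOf_eq (d : ℝ) : uOf A d = A.topOf d / A.ctop := by
  rw [uOf, Atoms.blockOf, share_last, mul_one, inv_mul_eq_div]

lemma uOf_spec {d : ℝ} (hd : 0 ≤ d) :
    0 ≤ uOf A d ∧ uOf A d * Sf A (uOf A d) = d ∧ uOf1 A d = (Df A (uOf A d))⁻¹ := by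
  have hy : A.topOf d = A.ctop * uOf A d := by
    rw [uOf_eq, mul_div_cancel₀ _ (ctop_pos (A := A)).ne']
  refine ⟨by rw [uOf_eq]; exact div_nonneg (topOf_nonneg d) ctop_pos.le, ?_, ?_⟩
  · rw [← total_mul, ← hy, total_topOf hd]
  · rw [uOf1, Atoms.dblockOf, dshare_last, hy, sum_dshare, one_div_div, ← mul_div_assoc,
      inv_mul_cancel₀ (ctop_pos (A := A)).ne', one_div]

lemma coord_calc {r : ℕ} (m : Fin r → ℝ) (hm : ∀ i, m i ≠ 0) (q : Fin (r + 1) → ℝ)
    (G G1 : ℝ → ℝ) :
    El.calc' m G G1 (A.coordEl m q) =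
      El.calc' m (fun d => G (uOf A d)) (fun d => G1 (uOf A d) * uOf1 A d) (El.ofPath q) :=
  calc_comp hm _ _ G G1 _ _

end Vale.Agent.P166.Haar2.Compr

namespace Vale.Agent.P166.Haar2

open Compr Vale.Agent.P157.Parisi in
/-- The averaged steps give the functional at the conjugate field path. -/
theorem value : ValueStmt := by
  intro K A C r m q hq hid
  have hm : ∀ i, m i ≠ 0 := fun i => (hq.pos i).ne'
  have hsec : Secular C := fun u hu => by
    obtain ⟨h1, h2⟩ := hid (A.ctop * u) (mul_nonneg (ctop_pos (A := A)).le hu)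
    rw [ratio_mul, mul_div_cancel_left₀ _ (ctop_pos (A := A)).ne'] at h1
    rw [sum_share, mul_div_cancel₀ _ (ctop_pos (A := A)).ne',
      mul_div_cancel_left₀ _ (ctop_pos (A := A)).ne'] at h2
    refine ⟨h1.trans (Finset.sum_congr rfl fun j _ => ?_), h2⟩
    rw [dampF, mul_div_assoc]
  set P : ℝ → ℝ := fun y => ∫ t in (0 : ℝ)..y, A.rA t
  set F : ℝ → ℝ := fun d => Ff C (uOf A d)
  set F1 : ℝ → ℝ := fun d => Ff1 C (uOf A d) * uOf1 A d
  have hfs : (C.fieldEl m q).s = (El.calc' m F F1 (El.ofPath q)).s := by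
    simp only [Compr.fieldEl, dampEl, coord_calc m hm, F, F1, Ff, Ff1, Finset.sum_mul,
      calc_s_sum, mul_assoc, calc_s_smul]
  have hfv : ∀ p, (C.fieldEl m q).v p = (El.calc' m F F1 (El.ofPath q)).v p := fun p => by
    simp only [Compr.fieldEl, dampEl, coord_calc m hm, F, F1, Ff, Ff1, Finset.sum_mul,
      calc_v_sum, mul_assoc, calc_v_smul]
  have hpair := calc_mul_self hm q F F1
  -- the diagonal value of the whole
  set B : ℝ := (∑ j, -(El.calc' m (logF (A.top - C.z j)) (logF1 (A.top - C.z j))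
      (A.coordEl m q)).s) +
    (∑ k, -A.c k * (El.calc' m (logF (A.gapTop k)) (logF1 (A.gapTop k)) (A.coordEl m q)).s) +
    ∑ j : Fin K, (El.calc' m (logF (A.gapTop j.castSucc)) (logF1 (A.gapTop j.castSucc))
      (A.coordEl m q)).s with hB
  have hone : (El.calc' m (fun d => d) (fun _ => (1 : ℝ)) (El.ofPath q)).s = 1 := by
    rw [calc_s_eq_integral hq continuous_const (fun y => hasDerivAt_id' y) rfl]
    simp
  have hsum : A.mean + (El.calc' m (fun d => d * F d) (fun d => F d + d * F1 d) (El.ofPath q)).s + B =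
      (El.calc' m (fun d => d * A.mean + d * F d + Lf C (uOf A d))
        (fun d => A.mean + (F d + d * F1 d) + Lf1 C (uOf A d) * uOf1 A d) (El.ofPath q)).s := by
    have hlin : (El.calc' m (fun d => A.mean * d) (fun _ => A.mean * 1) (El.ofPath q)).s = A.mean := by
      rw [calc_s_smul, hone, mul_one]
    simp only [mul_comm _ A.mean, mul_one] at hlin ⊢
    rw [calc_s_add, calc_s_add, hlin, hB, ← coord_calc m hm]
    rw [show Lf C = fun u => Lf C u from rfl, show Lf1 C = fun u => Lf1 C u from rfl]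
    simp only [Lf, Lf1, calc_s_add, calc_s_sum, calc_s_smul]
    have hneg : ∀ f f1 : ℝ → ℝ, (El.calc' m (fun u => -f u) (fun u => -f1 u) (A.coordEl m q)).s =
        -(El.calc' m f f1 (A.coordEl m q)).s :=
      fun f f1 => by simpa using calc_s_smul (m := m) (-1) f f1 (A.coordEl m q)
    simp only [hneg]
  have hwhole : (El.calc' m (fun d => d * A.mean + d * F d + Lf C (uOf A d))
      (fun d => A.mean + (F d + d * F1 d) + Lf1 C (uOf A d) * uOf1 A d) (El.ofPath q)).s =
      ∫ u in (0 : ℝ)..1, A.rA (dfun m q u) := by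
    rw [← calc_s_eq_integral hq continuous_rA (P := P)
      (fun y => (continuous_rA.integral_hasStrictDerivAt 0 y).hasDerivAt)
      intervalIntegral.integral_same]
    refine calc_s_congr (fun p => ?_) ?_
    · obtain ⟨hu, hd, -⟩ := uOf_spec (A := A) (eig_nonneg hq p)
      have := Phi_integral hsec hu
      rw [Phi, hd] at this
      exact this
    · obtain ⟨hu, hd, h1⟩ := uOf_spec (A := A) (eig_nonneg hq 0)
      have hD := (Df_pos (A := A) hu).ne'
      have := Phi1_eq hsec hu
      rw [← rA_eq hu, hd, Phi1, hd] at this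
      simp only [F, F1, h1]
      field_simp
      linear_combination this
  rw [hwhole, ← hpair] at hsum
  have hw : ∑ k, A.c k = 1 := A.sum_one
  simp only [Compr.stepValue, Atoms.funA, pairTerm, quadV, mul_add, mul_sub, Finset.sum_add_distrib,
    Finset.sum_sub_distrib, ← Finset.sum_mul, hw, one_mul]
  rw [← hsum, hfs, hB]
  simp only [hfv, neg_mul, Finset.sum_neg_distrib, ← Finset.mul_sum, mul_left_comm (A.c _),
    mul_add, mul_sub, mul_neg]
  ring

end Vale.Agent.P166.Haar2
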