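import Vale.Agent.P166.Haar2.Compr.Exists
import Vale.Agent.P166.Haar2.Compr.Value

/-! Module M2: the compression and the value identity. -/
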