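import Vale.Agent.P166.Haar2.Alg

/-!
The functional calculus of a path: eigenvalues, composition, the pairing with the path, and the
diagonal value as an integral along the path.
-/

noncomputable section

open MeasureTheory
open scoped BigOperators

namespace Vale.Agent.P166.Haar2.Compr

open Vale.Agent.P157.Parisi (IsPath weight)

variable {r : ℕ} (m : Fin r → ℝ)

lemma tele (c : Fin (r + 1) → ℝ) :
    ∑ i : Fin r, (c i.succ - c i.castSucc) = c (Fin.last r) - c 0 := by
  have h1 := Fin.sum_univ_castSucc c
  have h2 := Fin.sum_univ_succ c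
  rw [Finset.sum_sub_distrib]
  linarith

lemma sum_weight (c : Fin (r + 1) → ℝ) :
    ∑ p, weight m p * c p = c (Fin.last r) - ∑ i, m i * (c i.succ - c i.castSucc) := by
  simp only [weight, sub_mul, Finset.sum_sub_distrib, mul_sub]
  rw [Fin.sum_univ_castSucc fun p => (Fin.snoc m 1 : Fin (r + 1) → ℝ) p * c p,
    Fin.sum_univ_succ fun p => (Fin.cons 0 m : Fin (r + 1) → ℝ) p * c p]
  simp only [Fin.snoc_castSucc, Fin.snoc_last, Fin.cons_zero, Fin.cons_succ]
  ring

lemma eig_last (x : El r) : El.eig m x (Fin.last r) = x.s - x.v (Fin.last r) := by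
  have : ∀ l : Fin (r + 1), (if Fin.last r < l then weight m l * x.v l else 0) = 0 := fun l =>
    if_neg (not_lt.2 (Fin.le_last l))
  simp [El.eig, El.upMass, this]

lemma eig_step (x : El r) (i : Fin r) :
    El.eig m x i.castSucc = El.eig m x i.succ + m i * (x.v i.succ - x.v i.castSucc) := by
  have hsum : (∑ l, if i.castSucc < l then weight m l * x.v l else 0) =
      (∑ l, if i.succ < l then weight m l * x.v l else 0) + weight m i.succ * x.v i.succ := by
    rw [← Finset.sum_ite_eq' Finset.univ i.succ (fun l => weight m l * x.v l) |>.trans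
      (if_pos (Finset.mem_univ _)), ← Finset.sum_add_distrib]
    refine Finset.sum_congr rfl fun l _ => ?_
    simp only [Fin.lt_def, Fin.ext_iff, Fin.val_succ, Fin.val_castSucc]
    split_ifs <;> first | omega | simp
  simp only [El.eig, El.upMass]
  rw [hsum]
  simp only [Fin.snoc_castSucc, weight, Fin.cons_succ]
  ring

variable {m}

lemma calc_v_step (f f1 : ℝ → ℝ) (x : El r) (i : Fin r) :
    (El.calc' m f f1 x).v i.succ - (El.calc' m f f1 x).v i.castSucc =
      (f (El.eig m x i.castSucc) - f (El.eig m x i.succ)) / m i := by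
  simp only [El.calc', add_sub_add_left_eq_sub, ← Finset.sum_sub_distrib]
  rw [Finset.sum_eq_single i]
  · simp
  · intro j _ hj
    have : j.val ≠ i.val := fun e => hj (Fin.ext e)
    simp only [Fin.val_succ, Fin.val_castSucc]
    split_ifs <;> first | omega | simp
  · simp

lemma calc_v_zero (f f1 : ℝ → ℝ) (x : El r) :
    (El.calc' m f f1 x).v 0 = f1 (El.eig m x 0) * x.v 0 := by
  simp [El.calc']

lemma calc_v_last (f f1 : ℝ → ℝ) (x : El r) :
    (El.calc' m f f1 x).v (Fin.last r) = (El.calc' m f f1 x).s - f (El.eig m x (Fin.last r)) := by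
  simp [El.calc']
  ring

/-- The eigenvalues of the calculus. -/
lemma eig_calc (hm : ∀ i, m i ≠ 0) (f f1 : ℝ → ℝ) (x : El r) (p : Fin (r + 1)) :
    El.eig m (El.calc' m f f1 x) p = f (El.eig m x p) := by
  induction p using Fin.reverseInduction with
  | last => rw [eig_last, calc_v_last]; ring
  | cast i ih =>
    rw [eig_step, calc_v_step, ih, mul_div_cancel₀ _ (hm i)]
    ring

lemma eig_smul (c : ℝ) (x : El r) (p : Fin (r + 1)) :
    El.eig m (El.smul c x) p = c * El.eig m x p := by
  induction p using Fin.reverseInduction with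
  | last => rw [eig_last, eig_last]; simp [El.smul, mul_sub]
  | cast i ih => rw [eig_step, eig_step, ih]; simp [El.smul]; ring

/-- The calculus of a multiple of the calculus is the calculus of the composite. -/
lemma calc_comp (hm : ∀ i, m i ≠ 0) (f f1 G G1 : ℝ → ℝ) (c : ℝ) (x : El r) :
    El.calc' m G G1 (El.smul c (El.calc' m f f1 x)) =
      El.calc' m (fun u => G (c * f u)) (fun u => G1 (c * f u) * (c * f1 u)) x := by
  have h0 : (El.smul c (El.calc' m f f1 x)).v 0 = c * (f1 (El.eig m x 0) * x.v 0) := by
    simp [El.smul, calc_v_zero]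
  have e : ∀ p, El.eig m (El.smul c (El.calc' m f f1 x)) p = c * f (El.eig m x p) := fun p => by
    rw [eig_smul, eig_calc hm]
  generalize El.smul c (El.calc' m f f1 x) = y at e h0
  simp only [El.calc', e, h0, mul_assoc]

lemma calc_s_add (f f1 g g1 : ℝ → ℝ) (x : El r) :
    (El.calc' m (fun u => f u + g u) (fun u => f1 u + g1 u) x).s =
      (El.calc' m f f1 x).s + (El.calc' m g g1 x).s := by
  simp only [El.calc', add_sub_add_comm, add_div, Finset.sum_add_distrib, add_mul]
  ring

lemma calc_s_smul (a : ℝ) (f f1 : ℝ → ℝ) (x : El r) :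
    (El.calc' m (fun u => a * f u) (fun u => a * f1 u) x).s = a * (El.calc' m f f1 x).s := by
  simp only [El.calc', ← mul_sub, mul_div_assoc, ← Finset.mul_sum]
  ring

lemma calc_s_sum {ι : Type*} (S : Finset ι) (f f1 : ι → ℝ → ℝ) (x : El r) :
    (El.calc' m (fun u => ∑ j ∈ S, f j u) (fun u => ∑ j ∈ S, f1 j u) x).s =
      ∑ j ∈ S, (El.calc' m (f j) (f1 j) x).s := by
  classical
  induction S using Finset.induction_on with
  | empty => simp [El.calc']
  | insert j S hj ih =>
    simp only [Finset.sum_insert hj]
    rw [calc_s_add, ih]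

lemma calc_v_sum {ι : Type*} (S : Finset ι) (f f1 : ι → ℝ → ℝ) (x : El r) (p : Fin (r + 1)) :
    (El.calc' m (fun u => ∑ j ∈ S, f j u) (fun u => ∑ j ∈ S, f1 j u) x).v p =
      ∑ j ∈ S, (El.calc' m (f j) (f1 j) x).v p := by
  classical
  induction S using Finset.induction_on with
  | empty => simp [El.calc']
  | insert j S hj ih =>
    simp only [Finset.sum_insert hj]
    rw [← ih]
    simp only [El.calc', add_sub_add_comm, add_div, add_mul, ite_add_zero, Finset.sum_add_distrib]
    ring

lemma calc_v_smul (a : ℝ) (f f1 : ℝ → ℝ) (x : El r) (p : Fin (r + 1)) :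
    (El.calc' m (fun u => a * f u) (fun u => a * f1 u) x).v p = a * (El.calc' m f f1 x).v p := by
  simp only [El.calc', mul_add, Finset.mul_sum, mul_ite, mul_zero, ← mul_sub, mul_div_assoc,
    mul_assoc]

lemma calc_s_congr {f f1 g g1 : ℝ → ℝ} {x : El r} (h : ∀ p, f (El.eig m x p) = g (El.eig m x p))
    (h1 : f1 (El.eig m x 0) = g1 (El.eig m x 0)) :
    (El.calc' m f f1 x).s = (El.calc' m g g1 x).s := by
  simp only [El.calc', h, h1]

/-- The pairing with the path is the calculus of `u * f u`. -/
lemma calc_mul_self (hm : ∀ i, m i ≠ 0) (q : Fin (r + 1) → ℝ) (f f1 : ℝ → ℝ) :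
    (El.calc' m f f1 (El.ofPath q)).s -
        ∑ p, weight m p * (El.calc' m f f1 (El.ofPath q)).v p * q p =
      (El.calc' m (fun u => u * f u) (fun u => f u + u * f1 u) (El.ofPath q)).s := by
  set x : El r := El.ofPath q with hx
  set e := El.eig m x
  set V := (El.calc' m f f1 x).v
  have hs : (El.calc' m f f1 x).s = V (Fin.last r) + f (e (Fin.last r)) := by
    simp only [V, calc_v_last, e]; ring
  have hel : e (Fin.last r) = 1 - q (Fin.last r) := eig_last m x
  have hRHS : (El.calc' m (fun u => u * f u) (fun u => f u + u * f1 u) x).s =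
      e (Fin.last r) * f (e (Fin.last r)) +
        (∑ i : Fin r, (e i.castSucc * f (e i.castSucc) - e i.succ * f (e i.succ)) / m i) +
        (f (e 0) + e 0 * f1 (e 0)) * q 0 := rfl
  rw [hRHS, hs]
  simp only [mul_assoc]
  rw [sum_weight m fun p => V p * q p]
  have t1 := tele fun p => V p * e p
  have t2 := tele fun p => q p * f (e p)
  have key : ∑ i : Fin r, (m i * (V i.succ * q i.succ - V i.castSucc * q i.castSucc) +
      (V i.succ * e i.succ - V i.castSucc * e i.castSucc)) =
      ∑ i : Fin r, ((e i.castSucc * f (e i.castSucc) - e i.succ * f (e i.succ)) / m i -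
        (q i.succ * f (e i.succ) - q i.castSucc * f (e i.castSucc))) := by
    refine Finset.sum_congr rfl fun i _ => ?_
    have he : e i.castSucc = e i.succ + m i * (q i.succ - q i.castSucc) := eig_step m x i
    have hV : V i.succ = V i.castSucc + (f (e i.castSucc) - f (e i.succ)) / m i := by
      have := calc_v_step (m := m) f f1 x i
      linarith
    rw [hV]
    generalize f (e i.castSucc) = A
    generalize f (e i.succ) = B
    rw [he]
    field_simp [hm i]
    ring
  rw [Finset.sum_add_distrib, t1, Finset.sum_sub_distrib, t2] at key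
  have hV0 : V 0 = f1 (e 0) * q 0 := calc_v_zero f f1 x
  rw [hV0, hel] at key
  rw [hel]
  linear_combination key

/-! ### The diagonal value as an integral -/

variable (m)

lemma eig_last_ofPath (q : Fin (r + 1) → ℝ) :
    El.eig m (El.ofPath q) (Fin.last r) = 1 - q (Fin.last r) := eig_last m _

lemma dfun_step {q : Fin (r + 1) → ℝ} (hq : Monotone q) (i : Fin r) {u : ℝ}
    (hu : u ∈ Set.Icc (q i.castSucc) (q i.succ)) :
    dfun m q u = dfun m q (q i.succ) + m i * (q i.succ - u) := by
  have hl : q i.succ ≤ q (Fin.last r) := hq (Fin.le_last _)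
  rw [dfun, dfun, max_eq_right (hu.2.trans hl), max_eq_right hl, add_assoc, add_left_cancel_iff,
    ← sub_eq_iff_eq_add', ← Finset.sum_sub_distrib, Finset.sum_eq_single i]
  · rw [max_eq_right hu.2, max_eq_left hu.1, max_self,
      max_eq_left (hq (Fin.castSucc_lt_succ (i := i)).le)]
    ring
  · intro j _ hj
    rcases lt_or_gt_of_ne (fun e : j.val = i.val => hj (Fin.ext e)) with h | h
    · have h1 : q j.succ ≤ q i.castSucc :=
        hq (Fin.le_def.2 (by simp only [Fin.val_succ, Fin.val_castSucc]; omega))
      have h2 : q j.castSucc ≤ q j.succ := hq (Fin.castSucc_lt_succ (i := j)).le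
      rw [max_eq_left (h1.trans hu.1), max_eq_left (h2.trans (h1.trans hu.1)),
        max_eq_left (h1.trans (hu.1.trans hu.2)),
        max_eq_left (h2.trans (h1.trans (hu.1.trans hu.2)))]
      ring
    · have h1 : q i.succ ≤ q j.castSucc :=
        hq (Fin.le_def.2 (by simp only [Fin.val_succ, Fin.val_castSucc]; omega))
      have h2 : q j.castSucc ≤ q j.succ := hq (Fin.castSucc_lt_succ (i := j)).le
      rw [max_eq_right (hu.2.trans (h1.trans h2)), max_eq_right (hu.2.trans h1),
        max_eq_right (h1.trans h2), max_eq_right h1]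
      ring
  · simp

lemma dfun_top {q : Fin (r + 1) → ℝ} (hq : Monotone q) {u : ℝ} (hu : q (Fin.last r) ≤ u) :
    dfun m q u = 1 - u := by
  have : ∀ j, q j ≤ u := fun j => (hq (Fin.le_last j)).trans hu
  simp [dfun, max_eq_left hu, fun j => max_eq_left (this j)]

lemma eig_eq_dfun {q : Fin (r + 1) → ℝ} (hq : Monotone q) (p : Fin (r + 1)) :
    El.eig m (El.ofPath q) p = dfun m q (q p) := by
  induction p using Fin.reverseInduction with
  | last => rw [eig_last_ofPath, dfun_top m hq le_rfl]
  | cast i ih =>
    rw [eig_step, ih, dfun_step m hq i ⟨le_rfl, hq (Fin.castSucc_lt_succ (i := i)).le⟩]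
    rfl

lemma continuous_dfun (q : Fin (r + 1) → ℝ) : Continuous (dfun m q) := by
  unfold dfun
  fun_prop

variable {m}

lemma eig_nonneg {q : Fin (r + 1) → ℝ} (h : IsPath m q) (p : Fin (r + 1)) :
    0 ≤ El.eig m (El.ofPath q) p := by
  induction p using Fin.reverseInduction with
  | last => rw [eig_last_ofPath]; linarith [h.le_one]
  | cast i ih =>
    rw [eig_step]
    exact add_nonneg ih (mul_nonneg (h.pos i).le
      (sub_nonneg.2 (h.mono (Fin.castSucc_lt_succ (i := i)).le)))

/-- The diagonal value of the calculus of a primitive is an integral along the path. -/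
lemma calc_s_eq_integral {q : Fin (r + 1) → ℝ} (h : IsPath m q) {P f : ℝ → ℝ} (hf : Continuous f)
    (hP : ∀ x, HasDerivAt P (f x) x) (hP0 : P 0 = 0) :
    (El.calc' m P f (El.ofPath q)).s = ∫ u in (0 : ℝ)..1, f (dfun m q u) := by
  set g := fun u => f (dfun m q u) with hg
  have hgc : Continuous g := hf.comp (continuous_dfun m q)
  have hint : ∀ a b : ℝ, IntervalIntegrable g volume a b := fun a b => hgc.intervalIntegrable a b
  have hprim : ∀ a b : ℝ, ∫ x in a..b, f x = P b - P a := fun a b =>
    intervalIntegral.integral_eq_sub_of_hasDerivAt (fun x _ => hP x) (hf.intervalIntegrable a b)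
  have h0 : ∫ u in (0 : ℝ)..q 0, g u = q 0 * f (El.eig m (El.ofPath q) 0) := by
    rw [eig_eq_dfun m h.mono, intervalIntegral.integral_congr (g := fun _ => g (q 0)) fun u hu => ?_,
      intervalIntegral.integral_const, smul_eq_mul, sub_zero]
    rw [Set.uIcc_of_le h.nonneg] at hu
    have hh : ∀ j, u ≤ q j := fun j => hu.2.trans (h.mono (Fin.zero_le j))
    simp [g, dfun, fun j => max_eq_right (hh j), fun j => max_eq_right (h.mono (Fin.zero_le j))]
  have hr : ∫ u in q (Fin.last r)..1, g u = P (El.eig m (El.ofPath q) (Fin.last r)) := by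
    rw [intervalIntegral.integral_congr (g := fun u => f (1 - u)) fun u hu => ?_,
      intervalIntegral.integral_comp_sub_left, hprim, sub_self, hP0, sub_zero, eig_last_ofPath]
    rw [Set.uIcc_of_le h.le_one] at hu
    simp [g, dfun_top m h.mono hu.1]
  have hi : ∀ i : Fin r, ∫ u in q i.castSucc..q i.succ, g u =
      (P (El.eig m (El.ofPath q) i.castSucc) - P (El.eig m (El.ofPath q) i.succ)) / m i := by
    intro i
    have hm := (h.pos i).ne'
    have hle : q i.castSucc ≤ q i.succ := h.mono (Fin.castSucc_lt_succ (i := i)).le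
    rw [intervalIntegral.integral_congr
        (g := fun u => f (dfun m q (q i.succ) + m i * q i.succ - m i * u)) fun u hu => ?_,
      intervalIntegral.integral_comp_sub_mul _ hm, hprim, eig_eq_dfun m h.mono,
      eig_eq_dfun m h.mono, dfun_step m h.mono i ⟨le_rfl, hle⟩]
    · rw [smul_eq_mul]
      ring_nf
    · rw [Set.uIcc_of_le hle] at hu
      simp only [g, dfun_step m h.mono i hu]
      ring_nf
  have ht := tele fun p : Fin (r + 1) => ∫ u in (0 : ℝ)..q p, g u
  simp only [intervalIntegral.integral_interval_sub_left (hint _ _) (hint _ _), hi] at ht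
  have hsplit := intervalIntegral.integral_add_adjacent_intervals (hint 0 (q (Fin.last r)))
    (hint (q (Fin.last r)) 1)
  have hsplit' := intervalIntegral.integral_add_adjacent_intervals (hint 0 (q 0))
    (hint (q 0) (q (Fin.last r)))
  simp only [El.calc', show (El.ofPath q).v 0 = q 0 from rfl]
  rw [← hsplit, ← hsplit', ← ht, h0, hr]
  ring

end Vale.Agent.P166.Haar2.Compr
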