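import Vale.Agent.P166.Haar2.Compr.Func
import Vale.Agent.P166.Haar2.Statements

/-!
The compression of the atoms to the complement of the root weights, and its two secular
identities.
-/

noncomputable section

open MeasureTheory Matrix
open scoped BigOperators

namespace Vale.Agent.P166.Haar2.Compr

variable {K : ℕ} (A : Atoms K)

lemma exists_frame : ∃ O : Matrix (Fin (K + 1)) (Fin (K + 1)) ℝ,
    O.transpose * O = 1 ∧ ∀ i, O i (Fin.last K) = Real.sqrt (A.c i) := by
  set ψ : EuclideanSpace ℝ (Fin (K + 1)) := WithLp.toLp 2 fun i => Real.sqrt (A.c i) with hψ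
  have hn : ‖ψ‖ = 1 := by
    rw [EuclideanSpace.norm_eq]
    simp [hψ, Real.sq_sqrt (A.pos _).le, A.sum_one]
  obtain ⟨b, hb⟩ := Orthonormal.exists_orthonormalBasis_extension_of_card_eq
    (𝕜 := ℝ) (E := EuclideanSpace ℝ (Fin (K + 1))) (ι := Fin (K + 1)) (by simp)
    (v := fun _ => ψ) (s := {Fin.last K})
    ⟨fun i => hn, fun i j hij => absurd (Subtype.ext (i.2.trans j.2.symm)) hij⟩
  refine ⟨Matrix.of fun i j => b j i, ?_, fun i => ?_⟩
  · ext i j
    have := orthonormal_iff_ite.1 b.orthonormal i j
    rw [PiLp.inner_apply] at this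
    rw [Matrix.mul_apply, Matrix.one_apply, ← this]
    exact Finset.sum_congr rfl fun k _ => by simp [mul_comm]
  · show b (Fin.last K) i = _
    rw [hb _ rfl]

lemma exists_compr : Nonempty (Compr A) := by
  obtain ⟨O, hO, hlast⟩ := exists_frame A
  set T : Matrix (Fin K) (Fin K) ℝ :=
    fun j j' => ∑ i, O i j.castSucc * A.a i * O i j'.castSucc with hT
  have hTh : T.IsHermitian := by
    refine Matrix.IsHermitian.ext fun i j => ?_
    simp only [T, star_trivial]
    exact Finset.sum_congr rfl fun k _ => by ring
  set V : Matrix (Fin K) (Fin K) ℝ := (hTh.eigenvectorUnitary : Matrix (Fin K) (Fin K) ℝ)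
  have hVV : V.transpose * V = 1 := by
    rw [← Matrix.conjTranspose_eq_transpose_of_trivial, ← Matrix.star_eq_conjTranspose]
    exact Unitary.coe_star_mul_self hTh.eigenvectorUnitary
  have hVT : V.transpose * T * V = Matrix.diagonal hTh.eigenvalues := by
    rw [← Matrix.conjTranspose_eq_transpose_of_trivial, ← Matrix.star_eq_conjTranspose]
    have := Matrix.IsHermitian.conjStarAlgAut_star_eigenvectorUnitary hTh
    simp only [Unitary.conjStarAlgAut_apply, Unitary.coe_star, star_star] at this
    exact this
  set O' : Matrix (Fin (K + 1)) (Fin (K + 1)) ℝ := fun i =>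
    Fin.snoc (fun j => ∑ l, O i l.castSucc * V l j) (Real.sqrt (A.c i)) with hO'
  have hOc : ∀ i j, O' i j.castSucc = ∑ l, O i l.castSucc * V l j := fun i j => by
    simp [hO']
  have hOl : ∀ i, O' i (Fin.last K) = Real.sqrt (A.c i) := fun i => by simp [hO']
  have horth : ∀ a b, (∑ i, O i a * O i b) = if a = b then 1 else 0 := fun a b => by
    have := congrFun (congrFun hO a) b
    simpa [Matrix.mul_apply, Matrix.one_apply] using this
  have hswap : ∀ (F : Fin (K + 1) → ℝ) (j j' : Fin K), (∑ i, O' i j.castSucc * F i * O' i j'.castSucc) =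
      ∑ l, ∑ l', V l j * (∑ i, O i l.castSucc * F i * O i l'.castSucc) * V l' j' := fun F j j' => by
    simp only [hOc, Finset.sum_mul, Finset.mul_sum]
    rw [Finset.sum_comm]
    conv_rhs => rw [Finset.sum_comm]
    refine Finset.sum_congr rfl fun l' _ => ?_
    rw [Finset.sum_comm]
    exact Finset.sum_congr rfl fun l _ => Finset.sum_congr rfl fun i _ => by ring
  have hblock : ∀ j j' : Fin K, (∑ i, O' i j.castSucc * A.a i * O' i j'.castSucc) =
      if j = j' then hTh.eigenvalues j else 0 := fun j j' => by
    have := congrFun (congrFun hVT j) j'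
    simp only [Matrix.mul_apply, Matrix.transpose_apply, Matrix.diagonal_apply, Finset.sum_mul] at this
    rw [hswap, ← this, Finset.sum_comm]
  have hcc : ∀ j j' : Fin K, (∑ i, O' i j.castSucc * O' i j'.castSucc) =
      if j = j' then 1 else 0 := fun j j' => by
    have h1 := hswap (fun _ => 1) j j'
    simp only [mul_one, horth, Fin.castSucc_inj, mul_ite, mul_zero, ite_mul, zero_mul,
      Finset.sum_ite_eq, Finset.mem_univ, if_true] at h1
    rw [h1]
    have := congrFun (congrFun hVV j) j'
    simpa [Matrix.mul_apply, Matrix.one_apply] using this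
  have hcl : ∀ j : Fin K, (∑ i, O' i j.castSucc * Real.sqrt (A.c i)) = 0 := fun j => by
    simp only [hOc, Finset.sum_mul]
    rw [Finset.sum_comm]
    refine Finset.sum_eq_zero fun l _ => ?_
    have := horth l.castSucc (Fin.last K)
    simp only [hlast, (Fin.castSucc_lt_last l).ne, if_false] at this
    rw [← mul_zero (V l j), ← this, Finset.mul_sum]
    exact Finset.sum_congr rfl fun i _ => by ring
  have hO'o : O'.transpose * O' = 1 := by
    ext a b
    simp only [Matrix.mul_apply, Matrix.transpose_apply, Matrix.one_apply]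
    induction a using Fin.lastCases with
    | last =>
      induction b using Fin.lastCases with
      | last => simp [hOl, Real.mul_self_sqrt (A.pos _).le, A.sum_one]
      | cast j =>
        rw [if_neg (Fin.castSucc_lt_last j).ne']
        simp only [hOl]
        rw [← hcl j]
        exact Finset.sum_congr rfl fun i _ => mul_comm _ _
    | cast j =>
      induction b using Fin.lastCases with
      | last =>
        rw [if_neg (Fin.castSucc_lt_last j).ne]
        simp only [hOl]
        exact hcl j
      | cast j' => simp [hcc]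
  refine ⟨⟨hTh.eigenvalues, fun j => ∑ i, O' i j.castSucc * A.a i * O' i (Fin.last K), O', hO'o,
    hOl, hblock, fun j => rfl, fun j => ?_⟩⟩
  -- the compressed eigenvalues are below the top
  have hz : hTh.eigenvalues j = ∑ i, A.a i * O' i j.castSucc ^ 2 := by
    rw [← if_pos (rfl : j = j) (t := hTh.eigenvalues j) (e := 0), ← hblock]
    exact Finset.sum_congr rfl fun i _ => by ring
  have h1 : ∑ i, O' i j.castSucc ^ 2 = 1 := by simpa [sq] using hcc j j
  have hgap : A.top - hTh.eigenvalues j = ∑ i, A.gapTop i * O' i j.castSucc ^ 2 := by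
    simp only [hz, Atoms.gapTop, sub_mul, Finset.sum_sub_distrib, ← Finset.mul_sum, h1, mul_one]
  by_contra hle
  push Not at hle
  have hnn : ∀ i ∈ (Finset.univ : Finset (Fin (K + 1))), 0 ≤ A.gapTop i * O' i j.castSucc ^ 2 :=
    fun i _ => mul_nonneg (gapTop_nonneg i) (sq_nonneg _)
  have h0 := (Finset.sum_eq_zero_iff_of_nonneg hnn).1
    (le_antisymm (by linarith [hgap]) (Finset.sum_nonneg hnn))
  have hzero : ∀ i : Fin K, O' i.castSucc j.castSucc = 0 := fun i => by
    have hpos : 0 < A.gapTop i.castSucc := sub_pos.2 (A.mono (Fin.castSucc_lt_last i))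
    simpa [hpos.ne'] using h0 i.castSucc (Finset.mem_univ _)
  have hc := hcl j
  rw [Fin.sum_univ_castSucc] at hc h1
  simp only [hzero, zero_mul, Finset.sum_const_zero, zero_add, mul_eq_zero,
    Real.sqrt_eq_zero (A.pos _).le, (A.pos _).ne', or_false] at hc
  simp [hzero, hc] at h1

variable {A}

/-- The two secular identities, in the variable `u = y / c_top`. -/
lemma secular (C : Compr A) {u : ℝ} (hu : 0 ≤ u) :
    Ef A u / Sf A u - A.mean = ∑ j, C.b j ^ 2 * u / (1 + (A.top - C.z j) * u) ∧
      Real.log (Sf A u) = (∑ j, Real.log (1 + (A.top - C.z j) * u)) -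
        ∑ j : Fin K, Real.log (1 + A.gapTop j.castSucc * u) := by
  set O : Matrix (Fin (K + 1)) (Fin (K + 1)) ℝ := C.O with hOdef
  have hOO : O * O.transpose = 1 := mul_eq_one_comm.1 C.orth
  have hcol : ∀ a b, (∑ i, O i a * O i b) = if a = b then 1 else 0 := fun a b => by
    have := congrFun (congrFun C.orth a) b
    simpa [Matrix.mul_apply, Matrix.one_apply] using this
  have hrow : ∀ k i, (∑ a, O k a * O i a) = if k = i then 1 else 0 := fun k i => by
    have := congrFun (congrFun hOO k) i
    simpa [Matrix.mul_apply, Matrix.one_apply] using this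
  -- expansion of the columns multiplied by the atoms
  have hexp : ∀ (b : Fin (K + 1)) (k : Fin (K + 1)), A.a k * O k b =
      ∑ a, O k a * ∑ i, O i a * A.a i * O i b := fun b k => by
    simp only [Finset.mul_sum]
    rw [Finset.sum_comm]
    simp only [← mul_assoc, ← Finset.sum_mul, hrow, ite_mul, one_mul, zero_mul, Finset.sum_ite_eq,
      Finset.mem_univ, if_true]
  have hsq : ∀ i, O i (Fin.last K) = Real.sqrt (A.c i) := C.last_col
  have hmm : ∑ i, O i (Fin.last K) * A.a i * O i (Fin.last K) = A.mean := by
    refine Finset.sum_congr rfl fun i _ => ?_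
    rw [hsq, mul_comm (Real.sqrt _), mul_assoc, Real.mul_self_sqrt (A.pos i).le, mul_comm]
  have hsym : ∀ j : Fin K, (∑ i, O i (Fin.last K) * A.a i * O i j.castSucc) = C.b j := fun j => by
    rw [← C.conj_row j]
    exact Finset.sum_congr rfl fun i _ => by ring
  have hj : ∀ (j : Fin K) k,
      A.a k * O k j.castSucc = C.z j * O k j.castSucc + C.b j * Real.sqrt (A.c k) := fun j k => by
    rw [hexp, Fin.sum_univ_castSucc, hsym, hsq]
    have hb : ∀ x : Fin K, (∑ i, O i x.castSucc * A.a i * O i j.castSucc) =
        if x = j then C.z x else 0 := fun x => C.conj_block x j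
    simp only [hb, mul_ite, mul_zero, Finset.sum_ite_eq', Finset.mem_univ, if_true]
    ring
  have hl : ∀ k, A.a k * Real.sqrt (A.c k) =
      (∑ j : Fin K, C.b j * O k j.castSucc) + A.mean * Real.sqrt (A.c k) := fun k => by
    rw [← hsq, hexp, Fin.sum_univ_castSucc, hmm]
    congr 1
    · exact Finset.sum_congr rfl fun j _ => by rw [C.conj_row, mul_comm]
    · rw [mul_comm]
  -- the resolvent applied to the root weights
  set w : Fin (K + 1) → ℝ := fun k => Real.sqrt (A.c k) / (1 + A.gapTop k * u) with hw
  have hcw : ∀ k, Real.sqrt (A.c k) * w k = A.c k / (1 + A.gapTop k * u) := fun k => by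
    rw [hw, ← mul_div_assoc, Real.mul_self_sqrt (A.pos k).le]
  have hS : ∑ k, Real.sqrt (A.c k) * w k = Sf A u := by simp only [hcw, Sf]
  set v : Fin K → ℝ := fun j => ∑ k, O k j.castSucc * w k with hv
  have hden : ∀ j, 0 < 1 + (A.top - C.z j) * u := fun j => by
    nlinarith [mul_nonneg (sub_pos.2 (C.lt_top j)).le hu]
  have hvj : ∀ j, v j = u * C.b j * Sf A u / (1 + (A.top - C.z j) * u) := fun j => by
    rw [eq_div_iff (hden j).ne']
    have h0 : ∑ k, O k j.castSucc * (Real.sqrt (A.c k)) = 0 := by
      have := hcol j.castSucc (Fin.last K)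
      simpa [hsq, (Fin.castSucc_lt_last j).ne] using this
    have hk : ∀ k, O k j.castSucc * Real.sqrt (A.c k) =
        (1 + (A.top - C.z j) * u) * (O k j.castSucc * w k) -
          u * C.b j * (Real.sqrt (A.c k) * w k) := fun k => by
      have hd := (den_pos (A := A) k hu).ne'
      have e : Real.sqrt (A.c k) = (1 + A.gapTop k * u) * w k := by
        simp only [hw]; field_simp
      conv_lhs => rw [e, show A.gapTop k = A.top - A.a k from rfl]
      linear_combination u * w k * (-1) * hj j k
    simp only [hk, Finset.sum_sub_distrib, ← Finset.mul_sum, hS] at h0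
    simp only [hv]
    linarith
  constructor
  · have hE : Ef A u = ∑ j, C.b j * v j + A.mean * Sf A u := by
      rw [← hS, hv, Finset.mul_sum]
      simp only [Finset.mul_sum]
      rw [Finset.sum_comm, ← Finset.sum_add_distrib, Ef]
      refine Finset.sum_congr rfl fun k _ => ?_
      rw [mul_div_assoc, ← hcw, ← mul_assoc, hl, add_mul, Finset.sum_mul]
      congr 1
      · exact Finset.sum_congr rfl fun j _ => by ring
      · ring
    rw [hE, add_div, mul_div_assoc, div_self (Sf_pos hu).ne', mul_one, add_sub_cancel_right,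
      Finset.sum_div]
    refine Finset.sum_congr rfl fun j _ => ?_
    rw [hvj]
    field_simp [(Sf_pos (A := A) hu).ne', (hden j).ne']
  · -- Cramer's rule for the corner of the resolvent
    set D : Matrix (Fin (K + 1)) (Fin (K + 1)) ℝ :=
      Matrix.diagonal fun k => 1 + A.gapTop k * u with hD
    set R : Matrix (Fin (K + 1)) (Fin (K + 1)) ℝ :=
      Matrix.diagonal fun k => (1 + A.gapTop k * u)⁻¹ with hR
    set M := O.transpose * D * O with hM
    set X := O.transpose * R * O with hX
    have hDR : D * R = 1 := by
      rw [hD, hR, Matrix.diagonal_mul_diagonal, ← Matrix.diagonal_one]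
      exact congrArg _ (funext fun k => mul_inv_cancel₀ (den_pos k hu).ne')
    have hMX : M * X = 1 := by
      calc M * X = O.transpose * D * (O * O.transpose) * R * O := by
            simp only [hM, hX, Matrix.mul_assoc]
        _ = O.transpose * (D * R) * O := by rw [hOO, Matrix.mul_one, Matrix.mul_assoc O.transpose]
        _ = 1 := by rw [hDR, Matrix.mul_one, C.orth]
    have hadj : Matrix.adjugate M = M.det • X := by
      calc Matrix.adjugate M = Matrix.adjugate M * (M * X) := by rw [hMX, Matrix.mul_one]
        _ = _ := by rw [← Matrix.mul_assoc, Matrix.adjugate_mul, Matrix.smul_mul, Matrix.one_mul]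
    have hdetM : M.det = ∏ j : Fin K, (1 + A.gapTop j.castSucc * u) := by
      rw [hM, Matrix.det_mul_comm, ← Matrix.mul_assoc, hOO, Matrix.one_mul, hD, Matrix.det_diagonal,
        Fin.prod_univ_castSucc, gapTop_last, zero_mul, add_zero, mul_one]
    have hXl : X (Fin.last K) (Fin.last K) = Sf A u := by
      rw [hX, Matrix.mul_assoc, Matrix.mul_apply, ← hS]
      refine Finset.sum_congr rfl fun k _ => ?_
      rw [Matrix.transpose_apply, Matrix.diagonal_mul, hsq]
      simp only [hw, div_eq_inv_mul]
    have hsub : M.submatrix Fin.castSucc Fin.castSucc =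
        Matrix.diagonal fun j => 1 + (A.top - C.z j) * u := by
      ext j j'
      rw [Matrix.submatrix_apply, hM, Matrix.mul_assoc, Matrix.mul_apply, Matrix.diagonal_apply]
      simp only [Matrix.transpose_apply, hD, Matrix.diagonal_mul, Atoms.gapTop]
      have h1 := hcol j.castSucc j'.castSucc
      have h2 := C.conj_block j j'
      simp only [Fin.castSucc_inj] at h1
      have e : ∀ i, O i j.castSucc * ((1 + (A.top - A.a i) * u) * O i j'.castSucc) =
          (1 + A.top * u) * (O i j.castSucc * O i j'.castSucc) -
            u * (O i j.castSucc * A.a i * O i j'.castSucc) := fun i => by ring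
      simp only [e, Finset.sum_sub_distrib, ← Finset.mul_sum, h1, h2, O]
      by_cases hjj : j = j'
      · simp only [if_pos hjj]; ring
      · simp only [if_neg hjj]; ring
    have hcr : (∏ j, (1 + (A.top - C.z j) * u)) =
        (∏ j : Fin K, (1 + A.gapTop j.castSucc * u)) * Sf A u := by
      have h := congrFun (congrFun hadj (Fin.last K)) (Fin.last K)
      rw [Matrix.smul_apply, hXl, hdetM, Matrix.adjugate_fin_succ_eq_det_submatrix,
        Fin.succAbove_last, hsub, Matrix.det_diagonal, smul_eq_mul] at h
      rw [← h]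
      simp [← two_mul]
    have hg : ∀ j : Fin K, 0 < 1 + A.gapTop j.castSucc * u := fun j => den_pos _ hu
    rw [← Real.log_prod (fun j _ => (hden j).ne'), ← Real.log_prod (fun j _ => (hg j).ne'), hcr,
      Real.log_mul (Finset.prod_ne_zero_iff.2 fun j _ => (hg j).ne') (Sf_pos hu).ne',
      add_sub_cancel_left]

end Vale.Agent.P166.Haar2.Compr

namespace Vale.Agent.P166.Haar2

open Compr in
/-- The compression exists and satisfies the secular identities. -/
theorem compr : ComprStmt := by
  intro K A
  obtain ⟨C⟩ := exists_compr A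
  refine ⟨C, fun y hy => ?_⟩
  have hy' : y = A.ctop * (y / A.ctop) := (mul_div_cancel₀ y (ctop_pos (A := A)).ne').symm
  obtain ⟨h1, h2⟩ := secular C (div_nonneg hy (ctop_pos (A := A)).le)
  constructor
  · conv_lhs => rw [hy']
    rw [ratio_mul, h1]
  · conv_lhs => rw [hy']
    rw [sum_share, mul_div_cancel₀ _ (ctop_pos (A := A)).ne', h2]

end Vale.Agent.P166.Haar2
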